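import Vale.Agent.P319.S2.H510.Defs

/-! P319, block S2: pieces 1 and 2. -/

namespace Vale.Agent.P319.S2.H86

open Finset Matrix Vale.Agent.P319.SC Vale.Agent.P319.SC.H323 Vale.Agent.P319.SC.H235
  Vale.Agent.P319.S2

set_option linter.all false

variable {V ι : Type} [Fintype V] [DecidableEq V] [DecidableEq ι] {m k : ℕ}

theorem mem_C3 (𝒟 : Cfg V ι k) (v v' z t : V) : t ∈ C3 𝒟 v v' z ↔ 𝒟.c3 v v' t = 𝒟.c3 v v' z := by
  rw [C3, mem_filter, and_iff_right (mem_univ _)]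

theorem C3_sub (𝒟 : Cfg V ι k) (hk : 3 ≤ k) (v v' z : V) : C3 𝒟 v v' z ⊆ 𝒟.cls (𝒟.c1 z) := by
  intro t ht
  rw [mem_C3] at ht
  rw [𝒟.mem_cls]
  exact (𝒟.c1_of_c2 (by omega) (𝒟.c3_sub hk ht).2.1).2

theorem C3_card (𝒟 : Cfg V ι k) (hk : 3 ≤ k) {v v' z w w' t : V}
    (h : 𝒟.c3 v v' z = 𝒟.c3 w w' t) : (C3 𝒟 v v' z).card = (C3 𝒟 w w' t).card := by
  obtain ⟨e, he⟩ := 𝒟.ext2 hk (𝒟.c3_sub hk h).1
  refine Finset.card_bij (fun a _ => e a) ?_ ?_ ?_
  · intro a ha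
    rw [mem_C3] at ha ⊢
    rw [← he, ha, h]
  · intro a _ b _ hab
    exact e.injective hab
  · intro b hb
    refine ⟨e.symm b, ?_, e.apply_symm_apply b⟩
    rw [mem_C3] at hb ⊢
    rw [he, e.apply_symm_apply, hb, h]

/-- **piece 1** -/
theorem trace : TraceStmt := by
  classical
  intro V ι _ _ _ k 𝒟 hk D hD L hL v v' x x₁ Λ κ l hΛ hκ hκ1 hl hA hP hB
  have hk3 : 3 ≤ k := by omega
  set A := C3 𝒟 v v' x with hAdef
  set T := 𝒟.c2 x x₁ with hT
  set P := 𝒟.cls (𝒟.c1 x) with hPdef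
  set P2 := 𝒟.cls (𝒟.c1 x₁) with hP2def
  set B : Finset V := P2.filter fun z => L v v' z with hBdef
  set val : ℝ := (𝒟.val x T : ℝ) with hval
  have hAP : A ⊆ P := C3_sub 𝒟 hk3 v v' x
  have hBP : B ⊆ P2 := Finset.filter_subset _ _
  have hxA : x ∈ A := (mem_C3 𝒟 _ _ _ _).2 rfl
  have hApos : (0 : ℝ) < A.card := by exact_mod_cast card_pos.2 ⟨x, hxA⟩
  have hPpos : (0 : ℝ) < P.card := by exact_mod_cast 𝒟.cls_pos x
  have hP2pos : (0 : ℝ) < P2.card := by exact_mod_cast 𝒟.cls_pos x₁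
  have hvpos : 0 < val := by rw [hval]; exact_mod_cast 𝒟.val_pos x x₁
  have hTm : T ∈ 𝒟.rels (𝒟.c1 x) (𝒟.c1 x₁) := (𝒟.mem_rels _ _ _).2 ⟨x, x₁, rfl, rfl, rfl⟩
  have hBc : ∑ z ∈ P2, chi (L v v' z) = (B.card : ℝ) := sum_chi P2 _
  rw [hBc] at hB
  set g : V → ℝ := fun a => ∑ z ∈ univ.filter (fun z => 𝒟.c2 a z = T), chi (L v v' z) with hg
  -- the sum over `A × B`
  have hsum : ∀ a, ∑ b ∈ B, 𝒟.ind ℝ T a b = g a := by
    intro a
    have h1 : ∑ b ∈ B, 𝒟.ind ℝ T a b = ∑ b, (if 𝒟.c2 a b = T ∧ L v v' b then (1 : ℝ) else 0) := by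
      rw [hBdef, Finset.sum_filter, hP2def, Cfg.cls, Finset.sum_filter]
      refine Finset.sum_congr rfl fun b _ => ?_
      rw [𝒟.ind_apply]
      by_cases h2 : 𝒟.c2 a b = T
      · have h3 : 𝒟.c1 b = 𝒟.c1 x₁ := (𝒟.c1_of_c2 (by omega) h2).2
        rw [if_pos h3]
        by_cases h4 : L v v' b
        · rw [if_pos h4, if_pos h2, if_pos ⟨h2, h4⟩]
        · rw [if_neg h4, if_neg (fun h => h4 h.2)]
      · have h3 : ¬ (𝒟.c2 a b = T ∧ L v v' b) := fun h => h2 h.1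
        rw [if_neg h3, if_neg h2]
        split_ifs <;> rfl
    rw [h1, hg]
    simp only
    rw [Finset.sum_filter]
    refine Finset.sum_congr rfl fun b _ => ?_
    by_cases h2 : 𝒟.c2 a b = T
    · rw [if_pos h2]
      by_cases h4 : L v v' b
      · rw [if_pos ⟨h2, h4⟩, chi_pos h4]
      · rw [if_neg (fun h => h4 h.2), chi_neg h4]
    · rw [if_neg h2, if_neg (fun h => h2 h.1)]
  have hconst : ∀ a ∈ A, g a = g x := by
    intro a ha
    rw [mem_C3] at ha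
    obtain ⟨e, he⟩ := 𝒟.ext3 hk ha
    have hc : ∀ z, chi (L v v' z) = chi (L v v' (e z)) ∧ (𝒟.c2 a z = T ↔ 𝒟.c2 x (e z) = T) := by
      intro z
      obtain ⟨h1, h2, h3, h4⟩ := 𝒟.c4_sub hk (he z)
      refine ⟨chi_congr (hL _ _ _ _ _ _ h2), ?_⟩
      rw [(𝒟.c3_sub hk3 h3).2.2]
    have hga : g a = ∑ z, if 𝒟.c2 a z = T then chi (L v v' z) else 0 := by
      rw [hg]; simp only; rw [Finset.sum_filter]
    have hgx : g x = ∑ z, if 𝒟.c2 x z = T then chi (L v v' z) else 0 := by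
      rw [hg]; simp only; rw [Finset.sum_filter]
    rw [hga, hgx, ← Equiv.sum_comp e fun z => if 𝒟.c2 x z = T then chi (L v v' z) else 0]
    refine Finset.sum_congr rfl fun z _ => ?_
    obtain ⟨h1, h2⟩ := hc z
    by_cases h3 : 𝒟.c2 a z = T
    · rw [if_pos h3, if_pos (h2.1 h3), h1]
    · rw [if_neg h3, if_neg (fun h => h3 (h2.2 h))]
  have hAB : ∑ a ∈ A, ∑ b ∈ B, 𝒟.ind ℝ T a b = A.card * g x := by
    rw [Finset.sum_congr rfl fun a ha => (hsum a).trans (hconst a ha), Finset.sum_const,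
      nsmul_eq_mul]
  have hS : ∑ a ∈ P, ∑ b ∈ P2, 𝒟.ind ℝ T a b = P.card * val :=
    sum_ind_cls 𝒟 (by omega) rfl hTm
  have hS2 : ∑ a ∈ P, ∑ b ∈ P2, 𝒟.ind ℝ T a b ^ 2 ≤ P.card * val := by
    rw [← hS]
    exact le_of_eq (Finset.sum_congr rfl fun a _ => Finset.sum_congr rfl fun b _ => ind_sq 𝒟 T a b)
  have hBc0 : (0 : ℝ) ≤ B.card := Nat.cast_nonneg _
  have hq1 : (1 : ℝ) ≤ Λ / κ := by
    rw [le_div_iff₀ hκ]; linarith
  have hB2 : (B.card : ℝ) ≤ Λ * val :=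
    le_trans (by exact_mod_cast card_le_card hBP) hP
  have hA2 : (P.card : ℝ) ≤ A.card / κ := by
    rw [le_div_iff₀ hκ]; linarith
  have key := mixI 𝒟 hk3 hD (𝒟.inv2_ind (K := ℝ) T) (𝒟.c1 x) (𝒟.c1 x₁) hAP hBP hS2
    (K := Λ / κ * (A.card * val)) (by positivity) (by
      calc (P.card : ℝ) * val * ((A.card : ℝ) * B.card)
          ≤ (A.card / κ) * val * ((A.card : ℝ) * (Λ * val)) := by
            refine mul_le_mul (mul_le_mul_of_nonneg_right hA2 hvpos.le)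
              (mul_le_mul_of_nonneg_left hB2 hApos.le) (by positivity) (by positivity)
        _ = 1 * (Λ / κ) * (A.card * val) ^ 2 := by ring
        _ ≤ (Λ / κ) * (Λ / κ) * (A.card * val) ^ 2 := by
            refine mul_le_mul_of_nonneg_right ?_ (sq_nonneg _)
            exact mul_le_mul_of_nonneg_right hq1 (by positivity)
        _ = (Λ / κ * (A.card * val)) ^ 2 := by ring)
  rw [hAB, hS] at key
  have hE0 : 0 ≤ Real.sqrt D := Real.sqrt_nonneg _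
  have h1 := (mul_le_mul_of_nonneg_left (le_abs_self _) hE0).trans key
  have h2 : (P.card : ℝ) * val / (P.card * P2.card) * (A.card * B.card) ≤ A.card * (l * val) := by
    have h3 : (P.card : ℝ) * val / (P.card * P2.card) * (A.card * B.card) =
        A.card * (val * (B.card / P2.card)) := by
      field_simp
    rw [h3]
    refine mul_le_mul_of_nonneg_left ?_ hApos.le
    have h4 : (B.card : ℝ) / P2.card ≤ l := by
      rw [div_le_iff₀ hP2pos]; exact hB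
    nlinarith
  have h5 : A.card * (Real.sqrt D * g x) ≤
      A.card * ((Real.sqrt D * l + Λ / κ) * val) := by
    have h6 := mul_le_mul_of_nonneg_left h2 hE0
    nlinarith
  exact le_of_mul_le_mul_left h5 hApos

/-- **piece 2** -/
theorem newBad : NewBadStmt := by
  classical
  intro V ι _ _ _ k 𝒟 hk x κ N hκ hN
  set P := 𝒟.cls (𝒟.c1 x) with hPdef
  set θ : ℝ := κ * P.card with hθ
  have hPpos : (0 : ℝ) < P.card := by exact_mod_cast 𝒟.cls_pos x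
  have hθ0 : 0 ≤ θ := by positivity
  -- the count is the same for all points of the class
  have hsame : ∀ x' ∈ P, cnt P P (fun v v' => ((C3 𝒟 v v' x').card : ℝ) < θ) =
      cnt P P (fun v v' => ((C3 𝒟 v v' x).card : ℝ) < θ) := by
    intro x' hx'
    rw [𝒟.mem_cls] at hx'
    obtain ⟨e, he⟩ := 𝒟.ext1 (by omega) hx'
    have hmem : ∀ z, 𝒟.c1 z = 𝒟.c1 (e z) := fun z => (𝒟.c1_of_c2 (by omega) (he z)).2
    have hF : ∀ y : V, cnt P P (fun v v' => ((C3 𝒟 v v' y).card : ℝ) < θ) =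
        ∑ v, ∑ v', if 𝒟.c1 v = 𝒟.c1 x ∧ 𝒟.c1 v' = 𝒟.c1 x then
          chi (((C3 𝒟 v v' y).card : ℝ) < θ) else 0 := by
      intro y
      rw [cnt, hPdef, Cfg.cls, Finset.sum_filter]
      refine Finset.sum_congr rfl fun v _ => ?_
      by_cases h1 : 𝒟.c1 v = 𝒟.c1 x
      · rw [if_pos h1, Finset.sum_filter]
        refine Finset.sum_congr rfl fun v' _ => ?_
        by_cases h2 : 𝒟.c1 v' = 𝒟.c1 x
        · rw [if_pos h2, if_pos ⟨h1, h2⟩]
        · rw [if_neg h2, if_neg (fun h => h2 h.2)]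
      · rw [if_neg h1]
        refine (Finset.sum_eq_zero fun v' _ => ?_).symm
        rw [if_neg (fun h => h1 h.1)]
    rw [hF, hF]
    rw [← Equiv.sum_comp e fun v => ∑ v', if 𝒟.c1 v = 𝒟.c1 x ∧ 𝒟.c1 v' = 𝒟.c1 x then
          chi (((C3 𝒟 v v' x).card : ℝ) < θ) else 0]
    refine Finset.sum_congr rfl fun v _ => ?_
    obtain ⟨e', he'⟩ := 𝒟.ext2 hk (he v)
    rw [← Equiv.sum_comp e' fun v' => if 𝒟.c1 (e v) = 𝒟.c1 x ∧ 𝒟.c1 v' = 𝒟.c1 x then
          chi (((C3 𝒟 (e v) v' x).card : ℝ) < θ) else 0]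
    refine Finset.sum_congr rfl fun v' _ => ?_
    have h1 := 𝒟.c3_rot hk (he' v')
    have h2 : 𝒟.c1 v' = 𝒟.c1 (e' v') := (𝒟.c1_of_c2 (by omega) (𝒟.c3_sub hk (he' v')).2.1).2
    rw [← hmem, ← h2, C3_card 𝒟 hk h1]
  have hsum : ∑ x' ∈ P, cnt P P (fun v v' => ((C3 𝒟 v v' x').card : ℝ) < θ) =
      P.card * cnt P P (fun v v' => ((C3 𝒟 v v' x).card : ℝ) < θ) := by
    rw [Finset.sum_congr rfl hsame, Finset.sum_const, nsmul_eq_mul]
  have hle : ∑ x' ∈ P, cnt P P (fun v v' => ((C3 𝒟 v v' x').card : ℝ) < θ) ≤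
      (P.card : ℝ) * (P.card * (N * θ)) := by
    have h0 : ∑ x' ∈ P, cnt P P (fun v v' => ((C3 𝒟 v v' x').card : ℝ) < θ) =
        ∑ v ∈ P, ∑ v' ∈ P, ∑ x' ∈ P, chi (((C3 𝒟 v v' x').card : ℝ) < θ) := by
      unfold cnt
      rw [Finset.sum_comm]
      exact Finset.sum_congr rfl fun v _ => Finset.sum_comm
    rw [h0]
    refine sum2_le P P _ fun v hv v' hv' => ?_
    rw [sum_chi]
    refine light_count P (fun z => 𝒟.c3 v v' z) (hN v hv v' hv') hθ0 _ fun z _ hz => ?_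
    refine le_trans ?_ hz.le
    exact_mod_cast card_le_card fun t ht => (mem_C3 𝒟 _ _ _ _).2 (mem_filter.1 ht).2
  rw [hsum] at hle
  have h1 := le_of_mul_le_mul_left hle hPpos
  refine h1.trans (le_of_eq ?_)
  rw [hθ]; ring

end Vale.Agent.P319.S2.H86
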